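import Vale.Agent.P216.H319.F5LR
import Vale.Agent.P216.LS.Local
import Vale.Agent.P216.GM.F2

/-! The assembly `F4 M → LOC M` of the blocks of `GM/Spec.lean`. -/

open Set Topology

namespace Vale.Agent.P216.H319

open Vale.Agent.P265.AS H41 Push GM L250 LS H494

variable {M : Type} [MetricSpace M]

/-! ### Totals -/

theorem tot_mono {D : ℕ → ℕ} {N N' : ℕ} (h : Tot D N) (hN : N ≤ N') : Tot D N' :=
  fun n => (h n).trans hN

theorem tot_of_support {D : ℕ → ℕ} {N : ℕ} (h : ∀ j, N ≤ j → D j = 0) :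
    Tot D (∑ q ∈ Finset.range N, D q) := by
  intro n
  refine Finset.sum_le_sum_of_ne_zero fun q _ hq => ?_
  rw [Finset.mem_range]
  by_contra hcon
  exact hq (h q (not_lt.1 hcon))

theorem sum_shf (l : ℕ) (D : ℕ → ℕ) (n : ℕ) :
    ∑ q ∈ Finset.range n, shf l D q = ∑ q ∈ Finset.range (n - l), D q := by
  induction n with
  | zero => simp
  | succ n ih =>
    rw [Finset.sum_range_succ, ih]
    by_cases hn : n < l
    · have h1 : n + 1 - l = 0 := by omega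
      have h2 : n - l = 0 := by omega
      rw [h1, h2, shf, if_pos hn]; simp
    · have h1 : n + 1 - l = (n - l) + 1 := by omega
      rw [h1, Finset.sum_range_succ, shf, if_neg hn]

theorem tot_shf {D : ℕ → ℕ} {N : ℕ} (h : Tot D N) (l : ℕ) : Tot (GM.shf l D) N := by
  intro n
  rw [sum_shf]
  exact h _

theorem tot_dbl {D : ℕ → ℕ} {N : ℕ} (h : Tot D N) : Tot (GM.dbl D) (4 * N) := by
  intro n
  have h1 : ∀ q, GM.dbl D q = 2 * D q + 2 * GM.shf 1 D q := by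
    intro q
    unfold GM.dbl GM.shf
    rcases Nat.eq_zero_or_pos q with rfl | hq
    · simp
    · rw [if_neg hq.ne', if_neg (by omega)]
  rw [Finset.sum_congr rfl fun q _ => h1 q, Finset.sum_add_distrib, ← Finset.mul_sum,
    ← Finset.mul_sum]
  have h2 := h n
  have h3 := tot_shf h 1 n
  omega

/-! ### F5 in the form of the specification -/

/-- **F5.** -/
theorem f5 [CompactSpace M] {E : Type} [NormedAddCommGroup E] [NormedSpace ℝ E]
    [FiniteDimensional ℝ E] [ChartedSpace E M] {G : GeoList M} {ρ r : ℝ} (hρ : 0 < ρ)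
    (h : UniqSeg M ρ) (hr : ∀ j s t, |s - t| ≤ r → dist (G.c j s) (G.c j t) = |s - t|)
    {e a : ℝ} (he : e = 1 ∨ e = -1) (ha : 0 < a) {g : LM M} (hg : g ∈ G.KK e a) (K : ℕ)
    [NeZero K] (hK : a ≤ K * r) (hKρ : a < K * ρ) (hKρ2 : a ^ 2 < K * ρ ^ 2) :
    ∃ (N : ℕ) (D : ℕ → ℕ), Tot D N ∧ LR (PL M K) a {sampleL K g} D := by
  have hcr := crit_sample he ha.le hg hr hK hKρ h hρ
  have hE := E_sample_eq he ha.le hg hr hK hKρ h
  set x₀ : ZMod K → M := sampleL K g with hx₀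
  obtain ⟨N, D, hD, hb⟩ := f5_raw G hρ h (x₀ := x₀) hcr ha hE hKρ2
    (OpenPartialHomeomorph.pi fun i => chartAt E (x₀ i)) (by
      intro i _
      exact mem_chart_source E (x₀ i))
  refine ⟨_, D, tot_of_support hD, fun R hR => ?_⟩
  obtain ⟨R', hR', e₀, he₀, h2⟩ := hb R hR
  refine ⟨R', hR', min e₀ a, lt_min he₀ ha, fun s t hs hsa hat ht k _ q => ?_⟩
  have m1 := min_le_left e₀ a
  have m2 := min_le_right e₀ a
  rw [PL_eq (by linarith : (0 : ℝ) ≤ t), PL_eq (by linarith : (0 : ℝ) ≤ s)]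
  exact h2 s t (by linarith) hsa hat (by linarith) k q

/-! ### The loops of a closed geodesic -/

/-- The `m`-fold iterate of the closed geodesic `j`, with orientation `e`. -/
noncomputable def lp (G : GeoList M) {e : ℝ} (he : e = 1 ∨ e = -1) (j : G.ι) (m : ℕ) : LM M :=
  ofFn (fun t => G.c j (e * (m * G.ℓ j) * t)) ((G.continuous_c j).comp (by fun_prop)) (by
    intro t
    have h1 : e * (m * G.ℓ j) * (t + 1) = e * (m * G.ℓ j) * t + e * (m * G.ℓ j) := by ring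
    simp only [h1]
    have h2 := G.per j
    rcases he with rfl | rfl
    · rw [one_mul (_ * G.ℓ j)]
      exact h2.nat_mul m _
    · rw [show (-1 : ℝ) * (m * G.ℓ j) = -(m * G.ℓ j) by ring, ← sub_eq_add_neg]
      exact h2.sub_nat_mul_eq m)

theorem fn_lp (G : GeoList M) {e : ℝ} (he : e = 1 ∨ e = -1) (j : G.ι) (m : ℕ) (t : ℝ) :
    fn (lp G he j m) t = G.c j (e * (m * G.ℓ j) * t) := rfl

theorem mem_KK_of_fn {G : GeoList M} {e : ℝ} {j : G.ι} {a : ℝ} {g : LM M}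
    (hg : ∀ t, fn g t = G.c j (e * a * t)) : g ∈ G.KK e a :=
  ⟨j, 0, fun t => by rw [hg, add_zero]⟩

theorem orb_rot (g : LM M) (u : ℝ) : orb (rot u g) = orb g := by
  ext x
  constructor
  · rintro ⟨s, rfl⟩
    exact ⟨s + u, (rot_rot s u g).symm⟩
  · rintro ⟨s, rfl⟩
    refine ⟨s - u, ?_⟩
    show rot (s - u) (rot u g) = rot s g
    rw [rot_rot, sub_add_cancel]

/-- Every critical loop is a rotation of one with phase `0`. -/
theorem exists_phase {G : GeoList M} {e a : ℝ} (he : e = 1 ∨ e = -1) (ha : 0 < a) {g : LM M}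
    (hg : g ∈ G.KK e a) : ∃ (j : G.ι) (m : ℕ), 0 < m ∧ a = m * G.ℓ j ∧
      ∃ g' : LM M, (∀ t, fn g' t = G.c j (e * (m * G.ℓ j) * t)) ∧ orb g' = orb g := by
  obtain ⟨j, b, h⟩ := hg
  have hper := KK_period he ha h (r := 1) fun t => fn_periodic g t
  rw [mul_one] at hper
  obtain ⟨m', hm'⟩ := G.prime j _ hper
  have hℓ := G.ℓ_pos j
  have hm0 : 0 < m' := by
    by_contra hcon
    push Not at hcon
    have : (m' : ℝ) ≤ 0 := by exact_mod_cast hcon
    nlinarith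
  obtain ⟨m, rfl⟩ := Int.eq_ofNat_of_zero_le hm0.le
  have hma : a = m * G.ℓ j := by simpa using hm'
  have hea : e * a ≠ 0 := by
    rcases he with rfl | rfl <;> simpa using ha.ne'
  refine ⟨j, m, by exact_mod_cast hm0, hma, rot (-(b / (e * a))) g, fun t => ?_, orb_rot _ _⟩
  rw [fn_rot, h, ← hma]
  congr 1
  have : e * a * (b / (e * a)) = b := mul_div_cancel₀ _ hea
  rw [mul_add, mul_neg, this]
  ring

/-! ### The assembly -/

section
variable [CompactSpace M] {E : Type} [NormedAddCommGroup E] [NormedSpace ℝ E]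
  [FiniteDimensional ℝ E] [ChartedSpace E M] {G : GeoList M} {ρ r : ℝ} (hρ : 0 < ρ)
  (h : UniqSeg M ρ) (hr0 : 0 < r)
  (hr : ∀ j s t, |s - t| ≤ r → dist (G.c j s) (G.c j t) = |s - t|)
include E hρ h hr0 hr

/-- Finiteness for `k`-gons, `k` not necessarily large. -/
theorem f5_small {e a : ℝ} (he : e = 1 ∨ e = -1) (ha : 0 < a) {g : LM M} (hg : g ∈ G.KK e a)
    (K : ℕ) [NeZero K] (hK : a ≤ K * r) (hKρ : a < K * ρ) :
    ∃ (N : ℕ) (D : ℕ → ℕ), Tot D N ∧ LR (PL M K) a {sampleL K g} D := by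
  obtain ⟨q, hq⟩ := exists_nat_gt (a ^ 2 / ρ ^ 2)
  have hq0 : (0 : ℝ) < q := lt_of_le_of_lt (by positivity) hq
  have hqn : 0 < q := by exact_mod_cast hq0
  have hK1 : (1 : ℝ) ≤ K := by exact_mod_cast NeZero.one_le
  have hq1 : (1 : ℝ) ≤ q := by exact_mod_cast (hqn : 1 ≤ q)
  have : NeZero (q * K) := ⟨(Nat.mul_pos hqn (NeZero.pos K)).ne'⟩
  have hqK : (K : ℝ) ≤ ((q * K : ℕ) : ℝ) := by push_cast; nlinarith
  have hqK' : (q : ℝ) ≤ ((q * K : ℕ) : ℝ) := by push_cast; nlinarith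
  have hK' : a ≤ ((q * K : ℕ) : ℝ) * r := hK.trans (mul_le_mul_of_nonneg_right hqK hr0.le)
  have hKρ' : a < ((q * K : ℕ) : ℝ) * ρ :=
    hKρ.trans_le (mul_le_mul_of_nonneg_right hqK hρ.le)
  obtain ⟨N, D, hD, hLR⟩ := f5 (E := E) hρ h hr he ha hg (q * K) hK' hKρ' (by
    rw [div_lt_iff₀ (by positivity)] at hq
    exact hq.trans_le (mul_le_mul_of_nonneg_right hqK' (by positivity)))
  refine ⟨N, D, hD, ?_⟩
  exact LR_polygon_of_loop_KK h he ha hg hr hK hKρ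
    (LR_loop_of_polygon_KK h he ha hg hr hK' hKρ' hLR)

/-- The uniform bound for one closed geodesic. -/
theorem loc_one (h4 : F4 M) {e : ℝ} (he : e = 1 ∨ e = -1) (j : G.ι) :
    ∃ N : ℕ, ∀ m : ℕ, 0 < m → ∀ g : LM M, (∀ t, fn g t = G.c j (e * (m * G.ℓ j) * t)) →
      ∃ D : ℕ → ℕ, Tot D N ∧ LR (XL M) (m * G.ℓ j) {g} D := by
  have hℓ := G.ℓ_pos j
  have hmin : 0 < min r ρ := lt_min hr0 hρ
  obtain ⟨N₀, hN₀⟩ := exists_nat_gt (G.ℓ j / min r ρ)
  rw [div_lt_iff₀ hmin] at hN₀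
  obtain ⟨k₀, hk₀, B, hB, h4'⟩ := h4 G e he j N₀
  have hk : G.ℓ j < k₀ * min r ρ := by
    refine hN₀.trans_le (mul_le_mul_of_nonneg_right ?_ hmin.le)
    exact_mod_cast hk₀
  have hk0 : 0 < k₀ := by
    rcases Nat.eq_zero_or_pos k₀ with h0 | h0
    · rw [h0] at hk; simp at hk; linarith
    · exact h0
  have hkr : G.ℓ j < k₀ * r := hk.trans_le (by gcongr; exact min_le_left _ _)
  have hkρ : G.ℓ j < k₀ * ρ := hk.trans_le (by gcongr; exact min_le_right _ _)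
  have hbd : ∀ m : ℕ, 0 < m → m * G.ℓ j ≤ ((k₀ * m : ℕ) : ℝ) * r ∧
      m * G.ℓ j < ((k₀ * m : ℕ) : ℝ) * ρ := by
    intro m hm
    have hm' : (0 : ℝ) < m := by exact_mod_cast hm
    push_cast
    constructor <;> nlinarith
  have h5 : ∀ d : ℕ, 0 < d → ∃ (N : ℕ) (D : ℕ → ℕ), Tot D N ∧
      ∀ [NeZero (k₀ * d)], LR (PL M (k₀ * d)) (d * G.ℓ j) {sampleL (k₀ * d) (lp G he j d)} D := by
    intro d hd
    have : NeZero (k₀ * d) := ⟨(Nat.mul_pos hk0 hd).ne'⟩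
    have hd' : (0 : ℝ) < d := by exact_mod_cast hd
    obtain ⟨N, D, hD, hLR⟩ := f5_small (E := E) hρ h hr0 hr he (mul_pos hd' hℓ)
      (mem_KK_of_fn (fn_lp G he j d)) (k₀ * d) (hbd d hd).1 (hbd d hd).2
    exact ⟨N, D, hD, fun {_} => hLR⟩
  choose N D hD hLR using h5
  refine ⟨∑ d ∈ Finset.range (B + 1), if hd : 0 < d then N d hd else 0, fun m hm g hg => ?_⟩
  have hgcd : 0 < m.gcd B := Nat.gcd_pos_of_pos_left _ hm
  have hgcdB : m.gcd B ≤ B := Nat.gcd_le_right _ hB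
  have : NeZero (k₀ * m) := ⟨(Nat.mul_pos hk0 hm).ne'⟩
  have : NeZero (k₀ * m.gcd B) := ⟨(Nat.mul_pos hk0 hgcd).ne'⟩
  obtain ⟨l, hl⟩ := h4' m hm g (lp G he j (m.gcd B)) hg (fn_lp G he j _) _ (hLR _ hgcd)
  have hm' : (0 : ℝ) < m := by exact_mod_cast hm
  refine ⟨_, tot_mono (tot_shf (hD _ hgcd) l) ?_, LR_loop_of_polygon_KK h he (mul_pos hm' hℓ)
    (mem_KK_of_fn hg) hr (hbd m hm).1 (hbd m hm).2 hl⟩
  have := Finset.single_le_sum (f := fun d => if hd : 0 < d then N d hd else 0)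
    (fun d _ => Nat.zero_le _) (Finset.mem_range.2 (Nat.lt_succ_of_le hgcdB))
  simpa only [dif_pos hgcd] using this

end

/-- **LOC from F4.** -/
theorem loc [CompactSpace M] {E : Type} [NormedAddCommGroup E] [NormedSpace ℝ E]
    [FiniteDimensional ℝ E] [ChartedSpace E M] {ρ : ℝ} (hρ : 0 < ρ) (h : UniqSeg M ρ)
    (h4 : F4 M) : LOC M := by
  intro G
  obtain ⟨r, hr0, hr⟩ := H494.exists_scale G
  have := G.fin
  have := Fintype.ofFinite G.ι
  choose N1 hN1 using fun j => loc_one (E := E) hρ h hr0 hr h4 (e := 1) (Or.inl rfl) j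
  choose N2 hN2 using fun j => loc_one (E := E) hρ h hr0 hr h4 (e := -1) (Or.inr rfl) j
  refine ⟨4 * ∑ j, (N1 j + N2 j), fun e a he ha g hg => ?_⟩
  obtain ⟨j, m, hm, rfl, g', hg', horb⟩ := exists_phase he ha hg
  have hle : N1 j + N2 j ≤ ∑ j, (N1 j + N2 j) :=
    Finset.single_le_sum (f := fun j => N1 j + N2 j) (fun _ _ => Nat.zero_le _)
      (Finset.mem_univ j)
  obtain ⟨D, hD, hLR⟩ : ∃ D : ℕ → ℕ, Tot D (∑ j, (N1 j + N2 j)) ∧
      LR (XL M) (m * G.ℓ j) {g'} D := by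
    rcases he with rfl | rfl
    · obtain ⟨D, hD, hLR⟩ := hN1 j m hm g' hg'
      exact ⟨D, tot_mono hD (by omega), hLR⟩
    · obtain ⟨D, hD, hLR⟩ := hN2 j m hm g' hg'
      exact ⟨D, tot_mono hD (by omega), hLR⟩
  refine ⟨_, tot_dbl hD, ?_⟩
  rw [← horb]
  exact f2 G e _ he ha g' (mem_KK_of_fn hg') D hLR

end Vale.Agent.P216.H319
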