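import Vale.Agent.P216.H319.Loc
import Vale.Agent.P216.H804.D6
import Vale.Agent.P216.H844.F4Fin
import Vale.Agent.P216.GM.TW
import Vale.Agent.P216.Spine.Build2

/-! Block D6 complete: bounded bars give the uniform bound of the total dimension. -/

open Set Topology Bundle Manifold
open scoped ContDiff
open Vale.Agent.P216.H288 Vale.Agent.P216.H494 Vale.Agent.P216.L250

set_option maxSynthPendingDepth 3

namespace Vale.Agent.P216.H319

/-- **D6** from D5. -/
theorem bound_of_bars {E : Type} [NormedAddCommGroup E] [NormedSpace ℝ E] [FiniteDimensional ℝ E]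
    {M : Type} [MetricSpace M] [CompactSpace M] [ChartedSpace E M] [IsManifold 𝓘(ℝ, E) ∞ M]
    [RiemannianBundle (fun x : M => TangentSpace 𝓘(ℝ, E) x)]
    [IsContMDiffRiemannianBundle 𝓘(ℝ, E) ∞ E (fun x : M => TangentSpace 𝓘(ℝ, E) x)]
    [IsRiemannianManifold 𝓘(ℝ, E) M] (H : Hol M) (G : GeoList M) {ρ : ℝ} (hρ : 0 < ρ)
    (hs : LS.UniqSeg M ρ) (hB : (gsysOf H G hρ hs).Bars) : (gsysOf H G hρ hs).Bound :=
  GM.bound hρ hs (loc (E := E) hρ hs (H844.f4_M E M)) GM.tw H G _ hB

end Vale.Agent.P216.H319
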