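import Vale.Agent.P216.H319.PolyPush
import Vale.Agent.P216.H41.Fin3

/-! F5: the local rank at a point of a degenerate critical circle is finite, uniformly in the
field, at all scales. -/

open Set Topology

namespace Vale.Agent.P216.H319

open Vale.Agent.P265.AS H41 Push

/-- **F5, abstract form**: near `x₀` there is a chart, `P` is a neighbourhood of `x₀`. -/
theorem exists_rank_bound {X : Type} [MetricSpace X] {P : Set X} {f : X → ℝ} {Ψ : ℝ → X → X}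
    {x₀ : X} {r₀ : ℝ} (h : Push id P f (fun y => dist y x₀) Ψ (f x₀) r₀)
    (hf : Continuous f) (hP : P ∈ 𝓝 x₀) {V : Type} [NormedAddCommGroup V] [NormedSpace ℝ V]
    [FiniteDimensional ℝ V] (e : OpenPartialHomeomorph X V) (he : x₀ ∈ e.source) :
    ∃ (N : ℕ) (C : ℕ → ℕ), (∀ j, N ≤ j → C j = 0) ∧
      ∀ δ > 0, ∃ δ' > 0, δ' ≤ δ ∧ ∃ e₀ > 0, ∀ s t : ℝ, f x₀ - e₀ < s → s < f x₀ → f x₀ < t →
        t < f x₀ + e₀ → ∀ {k : Type} [Field k] (χ : k) (q : ℕ),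
        rk id χ (Nb P f (fun y => dist y x₀) δ t) (Nb P f (fun y => dist y x₀) δ s)
          (Nb P f (fun y => dist y x₀) δ' t) (Nb P f (fun y => dist y x₀) δ' s) q ≤ C q := by
  obtain ⟨R, hR, hRsub⟩ := Metric.nhds_basis_closedBall.mem_iff.1
    (Filter.inter_mem hP (e.open_source.mem_nhds he))
  set R₁ := min R r₀ with hR₁def
  have hR₁0 : 0 < R₁ := lt_min hR h.r₀_pos
  have hball : Metric.closedBall x₀ R₁ ⊆ P ∩ e.source :=
    (Metric.closedBall_subset_closedBall (min_le_left _ _)).trans hRsub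
  obtain ⟨e₁, he₁, hsc⟩ := h.scale (half_pos hR₁0) (half_lt_self hR₁0) (min_le_right _ _)
  -- the fixed pairs
  have hclosed : ∀ c : ℝ, ∀ r : ℝ, r ≤ R₁ →
      IsCompact (Nb P f (fun y => dist y x₀) r c) := by
    intro c r hr
    have : Nb P f (fun y => dist y x₀) r c = P ∩ (Metric.closedBall x₀ r ∩ {x | f x ≤ c}) := by
      ext x
      simp only [Nb, mem_ofPred_eq, mem_inter_iff, Metric.mem_closedBall]
    rw [this]
    exact h.compact.inter_right (Metric.isClosed_closedBall.inter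
      (isClosed_le hf continuous_const))
  have hopen : ∀ c : ℝ, IsOpen {v | v ∈ e.target ∧ e.symm v ∈ Metric.ball x₀ R₁ ∩ {x | f x < c}} := by
    intro c
    exact e.symm.isOpen_inter_preimage
      (Metric.isOpen_ball.inter (isOpen_lt hf continuous_const))
  have key : ∀ c c' : ℝ, c < c' → ∃ ε > 0, ∀ x ∈ Nb P f (fun y => dist y x₀) (R₁ / 2) c,
      ∀ v, dist v (e x) ≤ ε → v ∈ e.target ∧
        e.symm v ∈ Metric.ball x₀ R₁ ∩ {x | f x < c'} := by
    intro c c' hcc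
    have h1 : IsCompact (e '' Nb P f (fun y => dist y x₀) (R₁ / 2) c) := by
      refine (hclosed c _ (half_le_self hR₁0.le)).image_of_continuousOn (e.continuousOn.mono ?_)
      intro x hx
      exact (hball (Metric.closedBall_subset_closedBall (half_le_self hR₁0.le) hx.2.1)).2
    have h2 : e '' Nb P f (fun y => dist y x₀) (R₁ / 2) c ⊆
        {v | v ∈ e.target ∧ e.symm v ∈ Metric.ball x₀ R₁ ∩ {x | f x < c'}} := by
      rintro _ ⟨x, hx, rfl⟩
      have hxs := (hball (Metric.closedBall_subset_closedBall (half_le_self hR₁0.le) hx.2.1)).2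
      refine ⟨e.map_source hxs, ?_, ?_⟩
      · rw [e.left_inv hxs]
        exact lt_of_le_of_lt hx.2.1 (half_lt_self hR₁0)
      · change f (e.symm (e x)) < c'
        rw [e.left_inv hxs]
        exact lt_of_le_of_lt hx.2.2 hcc
    obtain ⟨ε, hε, h3⟩ := h1.exists_cthickening_subset_open (hopen c') h2
    refine ⟨ε, hε, fun x hx v hv => h3 ?_⟩
    exact Metric.mem_cthickening_of_dist_le v (e x) ε _ ⟨x, hx, rfl⟩ hv
  obtain ⟨ε₁, hε₁, hk₁⟩ := key (f x₀ + e₁ / 2) (f x₀ + e₁) (by linarith)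
  obtain ⟨ε₂, hε₂, hk₂⟩ := key (f x₀ - e₁) (f x₀ - e₁ / 2) (by linarith)
  have hKs : ∀ x ∈ Nb P f (fun y => dist y x₀) (R₁ / 2) (f x₀ + e₁ / 2), x ∈ e.source :=
    fun x hx => (hball (Metric.closedBall_subset_closedBall (half_le_self hR₁0.le) hx.2.1)).2
  obtain ⟨N, C, hC0, hC⟩ := finrank_chart
    (X := Nb P f (fun y => dist y x₀) (R₁ / 2) (f x₀ + e₁ / 2))
    (A := Nb P f (fun y => dist y x₀) (R₁ / 2) (f x₀ - e₁))
    (X' := Nb P f (fun y => dist y x₀) R₁ (f x₀ + e₁))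
    (A' := Nb P f (fun y => dist y x₀) R₁ (f x₀ - e₁ / 2))
    (φ := e) (ψ := e.symm) (hclosed _ _ (half_le_self hR₁0.le))
    (fun x hx => ⟨hx.1, hx.2.1, hx.2.2.trans (by linarith)⟩)
    (e.continuousOn.mono hKs) (ε := min ε₁ ε₂) (lt_min hε₁ hε₂)
    (e.symm.continuousOn.mono (by
      rintro v ⟨x, hx, hv⟩
      exact (hk₁ x hx v (hv.trans (min_le_left _ _))).1))
    (fun x hx => e.left_inv (hKs x hx))
    (fun x hx v hv => by
      have h1 := (hk₁ x hx v (hv.trans (min_le_left _ _))).2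
      exact ⟨(hball (Metric.ball_subset_closedBall h1.1)).1, h1.1.le, h1.2.le⟩)
    (fun x hx v hv => by
      have h1 := (hk₂ x hx v (hv.trans (min_le_right _ _))).2
      exact ⟨(hball (Metric.ball_subset_closedBall h1.1)).1, h1.1.le, h1.2.le⟩)
  refine ⟨N, C, hC0, fun δ hδ => ?_⟩
  obtain ⟨δ', hδ', hδδ, e₀, he₀, h2⟩ := hsc δ hδ
  refine ⟨δ', hδ', hδδ, e₀, he₀, fun s t hs hs' ht ht' k _ χ q => ?_⟩
  exact (h2 s t hs hs' ht ht' χ q).trans (hC χ q)

/-- **F5 for polygons.** `T` is a phase of the critical polygons near `x₀`. -/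
theorem f5_poly {M : Type} [MetricSpace M] [CompactSpace M] {K : ℕ} [NeZero K] {ρ s : ℝ}
    (hρ : 0 < ρ) (h : LS.UniqSeg M ρ) (h0 : 0 ≤ s) (hs : s ^ 2 < K * ρ ^ 2) {x₀ : ZMod K → M}
    (hx₀ : LS.E x₀ < s ^ 2) (hc₀ : H494.Crit (H494.Segs.ofUniqSeg hρ h) x₀)
    {T : L250.LM M → ℝ} (hT : Continuous T) (hT0 : T (LS.itpL x₀) = 0) {r₀ : ℝ} (hr₀ : 0 < r₀)
    (hloc : ∀ y ∈ LS.Pl M K s, dist y x₀ ≤ r₀ → H494.Crit (H494.Segs.ofUniqSeg hρ h) y →
      LS.itpL y = L250.rot (T (LS.itpL y)) (LS.itpL x₀))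
    {V : Type} [NormedAddCommGroup V] [NormedSpace ℝ V] [FiniteDimensional ℝ V]
    (e : OpenPartialHomeomorph (ZMod K → M) V) (he : x₀ ∈ e.source) :
    ∃ (N : ℕ) (C : ℕ → ℕ), (∀ j, N ≤ j → C j = 0) ∧
      ∀ δ > 0, ∃ δ' > 0, δ' ≤ δ ∧ ∃ e₀ > 0, ∀ a b : ℝ, LS.E x₀ - e₀ < a → a < LS.E x₀ →
        LS.E x₀ < b → b < LS.E x₀ + e₀ → ∀ {k : Type} [Field k] (χ : k) (q : ℕ),
        rk id χ (Nb (LS.Pl M K s) LS.E (fun y => dist y x₀) δ b)
          (Nb (LS.Pl M K s) LS.E (fun y => dist y x₀) δ a)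
          (Nb (LS.Pl M K s) LS.E (fun y => dist y x₀) δ' b)
          (Nb (LS.Pl M K s) LS.E (fun y => dist y x₀) δ' a) q ≤ C q := by
  have hP : LS.Pl M K s ∈ 𝓝 x₀ :=
    Filter.mem_of_superset ((isOpen_lt LS.continuous_E continuous_const).mem_nhds hx₀)
      fun y (hy : LS.E y < s ^ 2) => hy.le
  exact exists_rank_bound (push_poly hρ h h0 hs hx₀.le hc₀ hT hT0 hr₀ hloc) LS.continuous_E hP e he

end Vale.Agent.P216.H319
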