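import Vale.Agent.P216.H319.F5
import Vale.Agent.P216.H494.LocArc
import Vale.Agent.P216.GM.LR

/-! F5: local rank of the energy at a critical polygon, all inputs from the metric geometry. -/

open Set Topology

namespace Vale.Agent.P216.H319

open Vale.Agent.P265.AS H41 Push GM

/-- **F5.** At a critical polygon `x₀` of energy `a ^ 2` the local rank is bounded, uniformly in
the field and at all scales, by a finitely supported `D`. -/
theorem f5_raw {M : Type} [MetricSpace M] [CompactSpace M] (G : H494.GeoList M) {ρ : ℝ}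
    (hρ : 0 < ρ) (h : LS.UniqSeg M ρ) {K : ℕ} [NeZero K] {x₀ : ZMod K → M} {d₀ : ℝ}
    (hx₀ : H494.IsCritAt (H494.Segs.ofUniqSeg hρ h) 1 x₀ d₀) {a : ℝ} (ha : 0 < a)
    (hE : LS.E x₀ = a ^ 2) (h1 : a ^ 2 < K * ρ ^ 2)
    {V : Type} [NormedAddCommGroup V] [NormedSpace ℝ V] [FiniteDimensional ℝ V]
    (e : OpenPartialHomeomorph (ZMod K → M) V) (he : x₀ ∈ e.source) :
    ∃ (N : ℕ) (D : ℕ → ℕ), (∀ j, N ≤ j → D j = 0) ∧
      ∀ r > 0, ∃ r' > 0, ∃ e₀ > 0, ∀ s t : ℝ, a - e₀ < s → s < a → a < t → t < a + e₀ →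
        ∀ (k : Type) [Field k] (q : ℕ),
        rk id (1 : k) (nb {x₀} r ∩ LS.Pl M K t) (nb {x₀} r ∩ LS.Pl M K s)
          (nb {x₀} r' ∩ LS.Pl M K t) (nb {x₀} r' ∩ LS.Pl M K s) q ≤ (D q : Cardinal) := by
  -- an upper level
  obtain ⟨S, haS, hS⟩ : ∃ S, a < S ∧ S ^ 2 < K * ρ ^ 2 := by
    obtain ⟨u, hu1, hu2⟩ := exists_between h1
    refine ⟨√u, (Real.lt_sqrt ha.le).2 hu1, ?_⟩
    rw [Real.sq_sqrt ((sq_nonneg a).trans hu1.le)]
    exact hu2
  have hS0 : 0 < S := ha.trans haS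
  have hES : LS.E x₀ < S ^ 2 := by
    rw [hE]; exact pow_lt_pow_left₀ haS ha.le two_ne_zero
  have hst₀ : ∀ i, dist (x₀ i) (x₀ (i + 1)) < ρ := fun i =>
    LS.step_lt hρ (by rw [hE]; exact h1) i
  -- the loop of `x₀`
  have hEK : LS.E x₀ < K * ρ ^ 2 := by rw [hE]; exact h1
  have hg : LS.itpL x₀ ∈ G.KK 1 a ∪ G.KK (-1) a :=
    H494.mem_KK_of_crit G hρ h ha hst₀ hx₀ hE (funext (LS.fn_itpL h hρ hEK))
  obtain ⟨ε, hε, hg⟩ : ∃ ε : ℝ, (ε = 1 ∨ ε = -1) ∧ LS.itpL x₀ ∈ G.KK ε a := by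
    rcases hg with hg | hg
    · exact ⟨1, Or.inl rfl, hg⟩
    · exact ⟨-1, Or.inr rfl, hg⟩
  obtain ⟨m, hm, hmg⟩ := H494.exists_mult hε ha hg
  have hmpos : (0 : ℝ) < m := by exact_mod_cast hm
  have hd0 : (0 : ℝ) < 1 / (4 * m) := by positivity
  obtain ⟨T, -, hT⟩ := H494.exists_angle hε ha hg hm hmg
    (α := -(1 / (4 * m))) (β := 1 / (4 * m)) (by linarith) (by
      have : (1 : ℝ) / m = 4 * (1 / (4 * m)) := by field_simp
      rw [this]; linarith)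
  obtain ⟨r₀, hr₀, hloc⟩ := H494.locArc G hρ h hx₀ (by rw [hE]; positivity) hEK hd0
  have hc₀ : H494.Crit (H494.Segs.ofUniqSeg hρ h) x₀ := by
    have h3 := (H494.crit_tfae (S := H494.Segs.ofUniqSeg hρ h) hst₀ one_pos le_rfl).out 0 1
    exact h3.1 ⟨d₀, hx₀⟩
  obtain ⟨N, C, hC0, hC⟩ := f5_poly hρ h hS0.le hS hES hc₀ T.continuous
    (by
      have := hT 0 ⟨by linarith, hd0.le⟩
      rwa [L250.rot_zero] at this) hr₀
    (fun y hy hyr hyc => by
      have hsty : ∀ i, dist (y i) (y (i + 1)) < ρ := fun i =>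
        LS.step_lt hρ (lt_of_le_of_lt hy hS) i
      have h3 := (H494.crit_tfae (S := H494.Segs.ofUniqSeg hρ h) hsty one_pos le_rfl).out 1 0
      obtain ⟨d', hd'⟩ := h3.1 hyc
      obtain ⟨-, θ, hθ, hy⟩ := hloc y d' hd' hyr
      have h2 := hT θ (abs_le.1 hθ)
      rw [hy, h2]) e he
  refine ⟨N, C, hC0, fun r hr => ?_⟩
  obtain ⟨r', hr', -, e₀, he₀, h2⟩ := hC r hr
  refine ⟨r', hr', min (min a (S - a)) (e₀ / (3 * a)), by
    have := sub_pos.2 haS; positivity, fun s t hs hsa hat ht k _ q => ?_⟩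
  have m1 := min_le_left (min a (S - a)) (e₀ / (3 * a))
  have m2 := min_le_right (min a (S - a)) (e₀ / (3 * a))
  have m3 := min_le_left a (S - a)
  have m4 := min_le_right a (S - a)
  set η := min (min a (S - a)) (e₀ / (3 * a)) with hη
  have hη3 : η * (3 * a) ≤ e₀ := by
    have := mul_le_mul_of_nonneg_right m2 (by positivity : 0 ≤ 3 * a)
    rwa [div_mul_cancel₀ _ (by positivity)] at this
  have hs0 : 0 < s := by linarith
  have htS : t < S := by linarith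
  have ht0 : 0 < t := ha.trans hat
  have hset : ∀ (R u : ℝ), 0 ≤ u → u ≤ S → nb {x₀} R ∩ LS.Pl M K u =
      Nb (LS.Pl M K S) LS.E (fun y => dist y x₀) R (u ^ 2) := by
    intro R u hu huS
    ext y
    constructor
    · rintro ⟨⟨z, rfl, hz⟩, hy⟩
      exact ⟨LS.Pl_mono hu huS hy, hz, hy⟩
    · rintro ⟨-, hz, hy⟩
      exact ⟨⟨x₀, rfl, hz⟩, hy⟩
  rw [hset r t ht0.le htS.le, hset r s hs0.le (hsa.trans haS).le, hset r' t ht0.le htS.le,
    hset r' s hs0.le (hsa.trans haS).le]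
  refine h2 (s ^ 2) (t ^ 2) ?_ ?_ ?_ ?_ (1 : k) q
  · rw [hE]; nlinarith
  · rw [hE]; nlinarith
  · rw [hE]; nlinarith
  · rw [hE]; nlinarith

end Vale.Agent.P216.H319
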