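import Vale.Agent.P216.H319.Scale
import Vale.Agent.P216.LS.Desc

/-! The recentred curve shortening on polygons satisfies the hypotheses of `Push.scale`. -/

open Set Topology

namespace Vale.Agent.P216.H319

open L250 LS H494

variable {M : Type} [MetricSpace M] {K : ℕ} [NeZero K] {ρ s : ℝ}

/-- Recentred curve shortening. -/
noncomputable def Ps (S : Segs M) (T : LM M → ℝ) (u : ℝ) (y : ZMod K → M) : ZMod K → M :=
  sampleL K (rot (-(u * T (itpL y))) (itpL (S.H u y)))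

variable [CompactSpace M] (hρ : 0 < ρ) (h : UniqSeg M ρ)

/-- A critical polygon is determined, near a critical polygon `x₀`, by its phase `T`. -/
theorem push_poly (h0 : 0 ≤ s) (hs : s ^ 2 < K * ρ ^ 2) {x₀ : ZMod K → M} (hx₀ : x₀ ∈ Pl M K s)
    (hc₀ : Crit (Segs.ofUniqSeg hρ h) x₀) {T : LM M → ℝ} (hT : Continuous T)
    (hT0 : T (itpL x₀) = 0) {r₀ : ℝ} (hr₀ : 0 < r₀)
    (hloc : ∀ y ∈ Pl M K s, dist y x₀ ≤ r₀ → Crit (Segs.ofUniqSeg hρ h) y →
      itpL y = rot (T (itpL y)) (itpL x₀)) :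
    Push id (Pl M K s) LS.E (fun y => dist y x₀) (Ps (Segs.ofUniqSeg hρ h) T)
      (LS.E x₀) r₀ := by
  have hlt : ∀ {y : ZMod K → M}, y ∈ Pl M K s → LS.E y < K * ρ ^ 2 := fun hy =>
    lt_of_le_of_lt hy hs
  have hmem : ∀ {u : ℝ}, u ∈ Icc (0 : ℝ) 1 → ∀ {y : ZMod K → M}, y ∈ Pl M K s →
      (Segs.ofUniqSeg hρ h).H u y ∈ Pl M K s := fun hu _ hy => H_mem_Pl hρ h hs hy hu
  have hHle : ∀ {u : ℝ}, u ∈ Icc (0 : ℝ) 1 → ∀ {y : ZMod K → M}, y ∈ Pl M K s →
      LS.E ((Segs.ofUniqSeg hρ h).H u y) ≤ LS.E y := fun hu y hy =>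
    mul_le_mul_of_nonneg_left (en_H_le (steps hρ h hs hy) hu) cast_pos_K.le
  have hEle : ∀ {u : ℝ}, u ∈ Icc (0 : ℝ) 1 → ∀ {y : ZMod K → M}, y ∈ Pl M K s →
      LS.E (Ps (Segs.ofUniqSeg hρ h) T u y) ≤ LS.E ((Segs.ofUniqSeg hρ h).H u y) := by
    intro u hu y hy
    have hm := hmem hu hy
    have h1 : HasE (fn (itpL ((Segs.ofUniqSeg hρ h).H u y)))
        (LS.E ((Segs.ofUniqSeg hρ h).H u y)) := by
      have h2 : fn (itpL ((Segs.ofUniqSeg hρ h).H u y)) = itp ((Segs.ofUniqSeg hρ h).H u y) :=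
        funext (fn_itpL h hρ (hlt hm))
      rw [h2]
      exact hasE_itp' h hρ (hlt hm)
    have h3 : HasE (fn (rot (-(u * T (itpL y))) (itpL ((Segs.ofUniqSeg hρ h).H u y))))
        (LS.E ((Segs.ofUniqSeg hρ h).H u y)) := by
      have h4 : fn (rot (-(u * T (itpL y))) (itpL ((Segs.ofUniqSeg hρ h).H u y))) =
          fun t => fn (itpL ((Segs.ofUniqSeg hρ h).H u y)) (t + -(u * T (itpL y))) :=
        funext fun t => fn_rot _ _ t
      rw [h4]
      exact h1.rot _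
    exact E_sample_le (fn_periodic _) h3
  have hcrit : ∀ {u : ℝ}, u ∈ Icc (0 : ℝ) 1 → ∀ {y : ZMod K → M}, y ∈ Pl M K s →
      Crit (Segs.ofUniqSeg hρ h) y → (Segs.ofUniqSeg hρ h).H u y = y := by
    intro u hu y hy hc
    have h2 : (s ^ 2 / K) < (Segs.ofUniqSeg hρ h).ρ ^ 2 := by
      rw [Segs.ofUniqSeg_ρ, div_lt_iff₀ cast_pos_K]; linarith
    have h3 : y ∈ sub M K (s ^ 2 / K) := by
      show en _ ≤ _
      rw [le_div_iff₀ cast_pos_K, mul_comm]
      exact hy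
    exact hc.H_eq h2 h3 hu
  have hfix : ∀ u ∈ Icc (0 : ℝ) 1, Ps (Segs.ofUniqSeg hρ h) T u x₀ = x₀ := by
    intro u hu
    rw [Ps, hcrit hu hx₀ hc₀, hT0, mul_zero, neg_zero, rot_zero]
    exact sampleL_itpL h hρ (hlt hx₀)
  refine
    { r₀_pos := hr₀
      compact := isCompact_Pl s
      inv := fun _ => Iff.rfl
      cf := continuous_E.continuousOn
      fg := fun _ _ => rfl
      cρ := by fun_prop
      ρg := fun _ _ => rfl
      ρ_nonneg := fun _ _ => dist_nonneg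
      maps := fun u hu y hy => ((hEle hu hy).trans (hHle hu hy)).trans hy
      le := fun u hu y hy => (hEle hu hy).trans (hHle hu hy)
      zero := fun y hy => ?_
      eqv := fun _ _ _ _ => rfl
      cont := ?_
      fix := fun y hy hy0 u hu => ?_
      val := fun y hy hy0 => ?_
      strict := fun y hy hyr => ?_ }
  · rw [Ps, H_zero (steps hρ h hs hy), zero_mul, neg_zero, rot_zero]
    exact sampleL_itpL h hρ (hlt hy)
  · have hI : ContinuousOn (itpL : (ZMod K → M) → LM M) (Pl M K s) :=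
      continuousOn_itpL h hρ h0 hs
    have h1 : ContinuousOn (fun q : ℝ × (ZMod K → M) =>
        itpL ((Segs.ofUniqSeg hρ h).H q.1 q.2)) (Icc (0 : ℝ) 1 ×ˢ Pl M K s) :=
      hI.comp (continuousOn_H_Pl hρ h hs) fun q hq => hmem hq.1 hq.2
    have h2 : ContinuousOn (fun q : ℝ × (ZMod K → M) => T (itpL q.2))
        (Icc (0 : ℝ) 1 ×ˢ Pl M K s) :=
      hT.comp_continuousOn (hI.comp continuous_snd.continuousOn fun q hq => hq.2)
    refine continuousOn_pi.2 fun i => ?_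
    have h3 : ContinuousOn (fun q : ℝ × (ZMod K → M) =>
        ((itpL ((Segs.ofUniqSeg hρ h).H q.1 q.2) : LM M),
          (i.val : ℝ) / K + -(q.1 * T (itpL q.2)))) (Icc (0 : ℝ) 1 ×ˢ Pl M K s) :=
      h1.prodMk (continuousOn_const.add (continuous_fst.continuousOn.mul h2).neg)
    have h4 := continuous_fn_apply.comp_continuousOn h3
    refine h4.congr fun q hq => ?_
    simp only [Ps, sampleL, sample, fn_rot, Function.comp_apply]
  · have : y = x₀ := dist_eq_zero.1 hy0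
    subst this
    rw [hfix u hu, dist_self]
  · rw [dist_eq_zero.1 hy0]
  · by_cases hc : Crit (Segs.ofUniqSeg hρ h) y
    · right
      have h1 : (1 : ℝ) ∈ Icc (0 : ℝ) 1 := ⟨zero_le_one, le_rfl⟩
      have e1 : rot (-(T (itpL y))) (itpL y) = itpL x₀ := by
        have e2 := congrArg (rot (-(T (itpL y)))) (hloc y hy hyr hc)
        rw [e2, rot_rot, neg_add_cancel, rot_zero]
      have e3 : Ps (Segs.ofUniqSeg hρ h) T 1 y = x₀ := by
        rw [Ps, hcrit h1 hy hc, one_mul, e1]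
        exact sampleL_itpL h hρ (hlt hx₀)
      rw [e3, dist_self]
    · left
      have h1 : (1 : ℝ) ∈ Icc (0 : ℝ) 1 := ⟨zero_le_one, le_rfl⟩
      refine lt_of_le_of_lt (hEle h1 hy) ?_
      rw [crit_iff_of_mem hρ h hs hy] at hc
      exact not_le.1 hc

end Vale.Agent.P216.H319
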