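import Vale.Agent.P265.H336.Exc

/-! Scale comparison of local ranks at a (not necessarily isolated) critical point, block [SCALE]
of the uniform Gromoll-Meyer bound. -/

open Set Matrix Topology

namespace Vale.Agent.P216.H319

open Vale.Agent.P265.AS

section Ext

variable {E : Type} [PseudoMetricSpace E] {k : Type} [Field k]

/-- Extension by zero of a relative cocycle. -/
theorem rs_mem_Zs {g : E → E} {χ : k} {X A L : Set E} (hgL : Inv g L)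
    {δ : ℝ} (hδ : 0 < δ) (h : ∀ x ∈ X, x ∉ A → ∀ y ∈ X, dist x y < δ → y ∈ L) {p : ℕ}
    {c : (Fin (p + 1) → E) → k} (hc : c ∈ Zs g χ L (L ∩ A) p) :
    rs k L (p + 1) c ∈ Zs g χ X A p := by
  obtain ⟨hc, ε, hε, h1, h2⟩ := hc
  have hz : ∀ {n : ℕ} {x : Fin n → E}, Sm A ε x → ∀ y : Fin (p + 1) → E, Sub y x →
      rs k L (p + 1) c y = 0 := by
    intro n x hx y hy
    by_cases hyL : ∀ i, y i ∈ L
    · rw [rs_of_mem hyL]
      have hy' := hx.sub hy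
      exact h2 y ⟨fun i => ⟨hyL i, hy'.1 i⟩, fun i j => hy'.2 i j⟩
    · exact rs_of_notMem hyL
  refine ⟨rs_eqv hgL hc, min ε δ, lt_min hε hδ, fun x hx => ?_, fun x hx => ?_⟩
  · rcases excisive h (hx.mono le_rfl (min_le_right _ _)) with hA | hL
    · exact d_eq_zero fun y hy =>
        hz (x := x) ⟨hA, fun i j => (hx.2 i j).trans_le (min_le_left _ _)⟩ y hy
    · rw [d_rs hL]
      exact h1 x ⟨hL, fun i j => (hx.2 i j).trans_le (min_le_left _ _)⟩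
  · exact hz (hx.mono le_rfl (min_le_left _ _)) x (Sub.refl x)

/-- A relative cocycle of `(X, A)` which is a relative coboundary on `(L, L ∩ A)`. -/
theorem mem_Bs_of_excision {g : E → E} {χ : k} {X A L : Set E} (hgL : Inv g L)
    {δ : ℝ} (hδ : 0 < δ) (h : ∀ x ∈ X, x ∉ A → ∀ y ∈ X, dist x y < δ → y ∈ L) {p : ℕ}
    {c : (Fin (p + 1) → E) → k} (hc : c ∈ Zs g χ X A p) (hb : c ∈ Bs g χ L (L ∩ A) p) :
    c ∈ Bs g χ X A p := by
  obtain ⟨hc, ε, hε, h1, h2⟩ := hc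
  obtain ⟨b, hb, ε', hε', h1', h2'⟩ := hb
  have hz : ∀ {n : ℕ} {x : Fin n → E}, Sm A (min ε ε') x → ∀ y : Fin p → E, Sub y x →
      rs k L p b y = 0 := by
    intro n x hx y hy
    by_cases hyL : ∀ i, y i ∈ L
    · rw [rs_of_mem hyL]
      have hy' := hx.sub hy
      exact h2' y ⟨fun i => ⟨hyL i, hy'.1 i⟩, fun i j => (hy'.2 i j).trans_le (min_le_right _ _)⟩
    · exact rs_of_notMem hyL
  refine ⟨rs k L p b, rs_eqv hgL hb, min (min ε ε') δ, lt_min (lt_min hε hε') hδ,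
    fun x hx => ?_, fun x hx => ?_⟩
  · rcases excisive h (hx.mono le_rfl (min_le_right _ _)) with hA | hL
    · have hxA : Sm A (min ε ε') x := ⟨hA, fun i j => (hx.2 i j).trans_le (min_le_left _ _)⟩
      rw [h2 x (hxA.mono le_rfl (min_le_left _ _)), d_eq_zero fun y hy => hz hxA y hy]
    · rw [d_rs hL]
      exact h1' x ⟨hL, fun i j => (hx.2 i j).trans_le
        ((min_le_left _ _).trans (min_le_right _ _))⟩
  · exact hz (hx.mono le_rfl (min_le_left _ _)) x (Sub.refl x)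

end Ext

/-- A homotopy `Ψ s`, `0 ≤ s ≤ 1`, of the identity of the compact set `P` along which `f` does not
increase. `ρ` is a distance-like function, `ρ = 0` a part of the critical set at level `a`;
at the points with `ρ ≤ r₀` either `Ψ 1` decreases `f` strictly or it maps into `ρ = 0`. -/
structure Push {E : Type} [PseudoMetricSpace E] (g : E → E) (P : Set E) (f ρ : E → ℝ)
    (Ψ : ℝ → E → E) (a r₀ : ℝ) : Prop where
  r₀_pos : 0 < r₀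
  compact : IsCompact P
  inv : Inv g P
  cf : ContinuousOn f P
  fg : ∀ x ∈ P, f (g x) = f x
  cρ : ContinuousOn ρ P
  ρg : ∀ x ∈ P, ρ (g x) = ρ x
  ρ_nonneg : ∀ x ∈ P, 0 ≤ ρ x
  maps : ∀ s ∈ Icc (0 : ℝ) 1, ∀ x ∈ P, Ψ s x ∈ P
  le : ∀ s ∈ Icc (0 : ℝ) 1, ∀ x ∈ P, f (Ψ s x) ≤ f x
  zero : ∀ x ∈ P, Ψ 0 x = x
  eqv : ∀ s ∈ Icc (0 : ℝ) 1, ∀ x ∈ P, Ψ s (g x) = g (Ψ s x)
  cont : ContinuousOn (fun q : ℝ × E => Ψ q.1 q.2) (Icc (0 : ℝ) 1 ×ˢ P)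
  fix : ∀ x ∈ P, ρ x = 0 → ∀ s ∈ Icc (0 : ℝ) 1, ρ (Ψ s x) = 0
  val : ∀ x ∈ P, ρ x = 0 → f x = a
  strict : ∀ x ∈ P, ρ x ≤ r₀ → f (Ψ 1 x) < f x ∨ ρ (Ψ 1 x) = 0

namespace Push

variable {E : Type} [PseudoMetricSpace E] {g : E → E} {P : Set E} {f ρ : E → ℝ}
  {Ψ : ℝ → E → E} {a r₀ : ℝ}

theorem one_mem : (1 : ℝ) ∈ Icc (0 : ℝ) 1 := ⟨zero_le_one, le_rfl⟩

section Basic

variable (h : Push g P f ρ Ψ a r₀)
include h

theorem contAt {s : ℝ} (hs : s ∈ Icc (0 : ℝ) 1) : ContinuousOn (Ψ s) P :=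
  h.cont.comp (f := fun x => (s, x)) (by fun_prop) fun x hx => ⟨hs, hx⟩

theorem iter_mem {x : E} (hx : x ∈ P) (n : ℕ) : (Ψ 1)^[n] x ∈ P := by
  induction n with
  | zero => exact hx
  | succ n ih => rw [Function.iterate_succ_apply']; exact h.maps 1 one_mem _ ih

theorem iter_le {x : E} (hx : x ∈ P) (n : ℕ) : f ((Ψ 1)^[n] x) ≤ f x := by
  induction n with
  | zero => exact le_rfl
  | succ n ih =>
    rw [Function.iterate_succ_apply']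
    exact (h.le 1 one_mem _ (h.iter_mem hx n)).trans ih

theorem iter_step {x : E} (hx : x ∈ P) (n : ℕ) :
    f ((Ψ 1)^[n + 1] x) ≤ f ((Ψ 1)^[n] x) := by
  rw [Function.iterate_succ_apply']
  exact h.le 1 one_mem _ (h.iter_mem hx n)

theorem iter_eqv {x : E} (hx : x ∈ P) (n : ℕ) : (Ψ 1)^[n] (g x) = g ((Ψ 1)^[n] x) := by
  induction n with
  | zero => rfl
  | succ n ih =>
    rw [Function.iterate_succ_apply', Function.iterate_succ_apply', ih,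
      h.eqv 1 one_mem _ (h.iter_mem hx n)]

theorem iter_cont (n : ℕ) : ContinuousOn ((Ψ 1)^[n]) P := by
  induction n with
  | zero => exact continuousOn_id
  | succ n ih =>
    rw [Function.iterate_succ']
    exact (h.contAt one_mem).comp ih fun x hx => h.iter_mem hx n

theorem iter_uc (n : ℕ) : ∀ ε > 0, ∃ δ > 0, ∀ x ∈ P, ∀ y ∈ P, dist x y < δ →
    dist ((Ψ 1)^[n] x) ((Ψ 1)^[n] y) < ε := by
  have h1 := h.compact.uniformContinuousOn_of_continuous (h.iter_cont n)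
  rw [Metric.uniformContinuousOn_iff] at h1
  intro ε hε
  obtain ⟨δ, hδ, h1⟩ := h1 ε hε
  exact ⟨δ, hδ, fun x hx y hy hxy => h1 x hx y hy hxy⟩

theorem ρ_uc : ∀ ε > 0, ∃ δ > 0, ∀ x ∈ P, ∀ y ∈ P, dist x y < δ → |ρ x - ρ y| < ε := by
  have h1 := h.compact.uniformContinuousOn_of_continuous h.cρ
  rw [Metric.uniformContinuousOn_iff] at h1
  intro ε hε
  obtain ⟨δ, hδ, h1⟩ := h1 ε hε
  exact ⟨δ, hδ, fun x hx y hy hxy => by
    have := h1 x hx y hy hxy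
    rwa [Real.dist_eq] at this⟩

theorem htpy_uc (n : ℕ) : ∀ ε > 0, ∃ δ > 0, ∀ s ∈ Icc (0 : ℝ) 1, ∀ t ∈ Icc (0 : ℝ) 1,
    ∀ x ∈ P, ∀ y ∈ P, |s - t| < δ → dist x y < δ →
    dist (Ψ s ((Ψ 1)^[n] x)) (Ψ t ((Ψ 1)^[n] y)) < ε := by
  have hc : ContinuousOn (fun q : ℝ × E => Ψ q.1 ((Ψ 1)^[n] q.2)) (Icc (0 : ℝ) 1 ×ˢ P) := by
    have h2 : ContinuousOn (fun q : ℝ × E => (q.1, (Ψ 1)^[n] q.2)) (Icc (0 : ℝ) 1 ×ˢ P) :=
      continuous_fst.continuousOn.prodMk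
        ((h.iter_cont n).comp continuous_snd.continuousOn fun q hq => hq.2)
    exact h.cont.comp h2 fun q hq => ⟨hq.1, h.iter_mem hq.2 n⟩
  have h1 := (isCompact_Icc.prod h.compact).uniformContinuousOn_of_continuous hc
  rw [Metric.uniformContinuousOn_iff] at h1
  intro ε hε
  obtain ⟨δ, hδ, h1⟩ := h1 ε hε
  refine ⟨δ, hδ, fun s hs t ht x hx y hy hst hxy => h1 (s, x) ⟨hs, hx⟩ (t, y) ⟨ht, hy⟩ ?_⟩
  rw [Prod.dist_eq, max_lt_iff]
  exact ⟨by rwa [Real.dist_eq], hxy⟩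

/-- Points close to `ρ = 0` stay close to it. -/
theorem near {δ : ℝ} (hδ : 0 < δ) : ∃ δ' > 0, δ' ≤ δ ∧ ∀ x ∈ P, ρ x ≤ δ' →
    ∀ s ∈ Icc (0 : ℝ) 1, ρ (Ψ s x) ≤ δ := by
  have hK : IsCompact {q : ℝ × E | q ∈ Icc (0 : ℝ) 1 ×ˢ P ∧ δ ≤ ρ (Ψ q.1 q.2)} := by
    have hc : ContinuousOn (fun q : ℝ × E => ρ (Ψ q.1 q.2)) (Icc (0 : ℝ) 1 ×ˢ P) :=
      h.cρ.comp h.cont fun q hq => h.maps _ hq.1 _ hq.2
    obtain ⟨u, hu, h2⟩ := continuousOn_iff_isClosed.1 hc (Ici δ) isClosed_Ici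
    have : {q : ℝ × E | q ∈ Icc (0 : ℝ) 1 ×ˢ P ∧ δ ≤ ρ (Ψ q.1 q.2)} =
        (Icc (0 : ℝ) 1 ×ˢ P) ∩ u := by
      rw [inter_comm _ u, ← h2, inter_comm]; rfl
    rw [this]
    exact (isCompact_Icc.prod h.compact).inter_right hu
  rcases Set.eq_empty_or_nonempty {q : ℝ × E | q ∈ Icc (0 : ℝ) 1 ×ˢ P ∧ δ ≤ ρ (Ψ q.1 q.2)} with
    he | hne
  · refine ⟨δ, hδ, le_rfl, fun x hx _ s hs => ?_⟩
    by_contra hcon
    have : ((s, x) : ℝ × E) ∈ {q : ℝ × E | q ∈ Icc (0 : ℝ) 1 ×ˢ P ∧ δ ≤ ρ (Ψ q.1 q.2)} :=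
      ⟨⟨hs, hx⟩, (not_le.1 hcon).le⟩
    rw [he] at this
    exact this
  · have hc : ContinuousOn (fun q : ℝ × E => ρ q.2)
        {q : ℝ × E | q ∈ Icc (0 : ℝ) 1 ×ˢ P ∧ δ ≤ ρ (Ψ q.1 q.2)} :=
      h.cρ.comp continuous_snd.continuousOn fun q hq => hq.1.2
    obtain ⟨q₀, hq₀, hmin⟩ := hK.exists_isMinOn hne hc
    have hpos : 0 < ρ q₀.2 := by
      rcases (h.ρ_nonneg _ hq₀.1.2).lt_or_eq with h3 | h3
      · exact h3
      · have := h.fix _ hq₀.1.2 h3.symm _ hq₀.1.1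
        have h4 := hq₀.2
        rw [this] at h4
        exact absurd h4 (not_le.2 hδ)
    refine ⟨min δ (ρ q₀.2 / 2), lt_min hδ (by positivity), min_le_left _ _,
      fun x hx hρ s hs => ?_⟩
    by_contra hcon
    have h5 : ρ q₀.2 ≤ ρ x := hmin (a := (s, x)) ⟨⟨hs, hx⟩, (not_le.1 hcon).le⟩
    have h6 := hρ.trans (min_le_right _ _)
    linarith

/-- A definite decrease on a compact set without exceptional points. -/
theorem exists_drop {K : Set E} (hK : IsCompact K) (hKP : K ⊆ P)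
    (hlt : ∀ x ∈ K, f (Ψ 1 x) < f x) : ∃ η > 0, ∀ x ∈ K, f (Ψ 1 x) ≤ f x - η := by
  rcases K.eq_empty_or_nonempty with rfl | hne
  · exact ⟨1, one_pos, fun x hx => absurd hx (notMem_empty x)⟩
  have hc : ContinuousOn (fun x => f x - f (Ψ 1 x)) K :=
    (h.cf.mono hKP).sub
      (h.cf.comp ((h.contAt one_mem).mono hKP) fun x hx => h.maps 1 one_mem x (hKP hx))
  obtain ⟨x₀, hx₀, hmin⟩ := hK.exists_isMinOn hne hc
  refine ⟨f x₀ - f (Ψ 1 x₀), sub_pos.2 (hlt x₀ hx₀), fun x hx => ?_⟩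
  have h2 : f x₀ - f (Ψ 1 x₀) ≤ f x - f (Ψ 1 x) := hmin hx
  linarith

omit h in
theorem isCompact_sep (hP : IsCompact P) {u : E → ℝ} (hu : ContinuousOn u P) {C : Set ℝ}
    (hC : IsClosed C) : IsCompact {x ∈ P | u x ∈ C} := by
  obtain ⟨v, hv, h2⟩ := continuousOn_iff_isClosed.1 hu C hC
  have : {x ∈ P | u x ∈ C} = P ∩ v := by
    rw [inter_comm P v, ← h2, inter_comm]; rfl
  rw [this]
  exact hP.inter_right hv

/-- Leaving a small neighbourhood costs. -/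
theorem gap {δ : ℝ} (hδ : 0 < δ) : ∃ γ > 0, ∀ x ∈ P, ρ x ≤ r₀ → δ ≤ ρ (Ψ 1 x) →
    f (Ψ 1 x) ≤ f x - γ := by
  have h1 : IsCompact {x ∈ P | ρ x ∈ Iic r₀} := isCompact_sep h.compact h.cρ isClosed_Iic
  have h2 : ContinuousOn (fun x => ρ (Ψ 1 x)) {x ∈ P | ρ x ∈ Iic r₀} :=
    (h.cρ.comp (h.contAt one_mem) fun x hx => h.maps 1 one_mem x hx).mono fun x hx => hx.1
  have h3 := isCompact_sep h1 h2 (isClosed_Ici (a := δ))
  obtain ⟨γ, hγ, h4⟩ := h.exists_drop h3 (fun x hx => hx.1.1) fun x hx => by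
    rcases h.strict x hx.1.1 hx.1.2 with h5 | h5
    · exact h5
    · have h6 : δ ≤ ρ (Ψ 1 x) := hx.2
      rw [h5] at h6
      exact absurd h6 (not_le.2 hδ)
  exact ⟨γ, hγ, fun x hx h5 h6 => h4 x ⟨⟨hx, h5⟩, h6⟩⟩

/-- Definite decrease above the level `a`. -/
theorem drop_above {e : ℝ} (he : 0 < e) : ∃ η > 0, ∀ x ∈ P, ρ x ≤ r₀ → a + e ≤ f x →
    f (Ψ 1 x) ≤ f x - η := by
  have h1 : IsCompact {x ∈ P | ρ x ∈ Iic r₀} := isCompact_sep h.compact h.cρ isClosed_Iic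
  have h3 := isCompact_sep h1 (h.cf.mono fun x hx => hx.1) (isClosed_Ici (a := a + e))
  obtain ⟨γ, hγ, h4⟩ := h.exists_drop h3 (fun x hx => hx.1.1) fun x hx => by
    rcases h.strict x hx.1.1 hx.1.2 with h5 | h5
    · exact h5
    · have h6 : a + e ≤ f x := hx.2
      rw [h.val _ (h.maps 1 one_mem x hx.1.1) h5]
      linarith
  exact ⟨γ, hγ, fun x hx h5 h6 => h4 x ⟨⟨hx, h5⟩, h6⟩⟩

/-- Definite decrease below the level `a`. -/
theorem drop_below {e : ℝ} (he : 0 < e) : ∃ η > 0, ∀ x ∈ P, ρ x ≤ r₀ → f x ≤ a - e →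
    f (Ψ 1 x) ≤ f x - η := by
  have h1 : IsCompact {x ∈ P | ρ x ∈ Iic r₀} := isCompact_sep h.compact h.cρ isClosed_Iic
  have h3 := isCompact_sep h1 (h.cf.mono fun x hx => hx.1) (isClosed_Iic (a := a - e))
  obtain ⟨γ, hγ, h4⟩ := h.exists_drop h3 (fun x hx => hx.1.1) fun x hx => by
    rcases h.strict x hx.1.1 hx.1.2 with h5 | h5
    · exact h5
    · have h6 : f x ≤ a - e := hx.2
      have h7 := h.val _ (h.maps 1 one_mem x hx.1.1) h5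
      have h8 := h.le 1 one_mem x hx.1.1
      linarith
  exact ⟨γ, hγ, fun x hx h5 h6 => h4 x ⟨⟨hx, h5⟩, h6⟩⟩

/-- The trap. -/
theorem trap {R γ : ℝ} (hR : R ≤ r₀)
    (hγ : ∀ x ∈ P, ρ x ≤ r₀ → R ≤ ρ (Ψ 1 x) → f (Ψ 1 x) ≤ f x - γ) {x : E} (hx : x ∈ P)
    (hρ : ρ x ≤ R) (n : ℕ) : ρ ((Ψ 1)^[n] x) ≤ R ∨ f ((Ψ 1)^[n] x) ≤ f x - γ := by
  induction n with
  | zero => exact Or.inl hρ
  | succ n ih =>
    rcases ih with h1 | h1
    · by_cases h2 : ρ ((Ψ 1)^[n + 1] x) ≤ R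
      · exact Or.inl h2
      · right
        rw [Function.iterate_succ_apply'] at h2 ⊢
        have := hγ _ (h.iter_mem hx n) (h1.trans hR) (not_le.1 h2).le
        linarith [h.iter_le hx n]
    · right
      exact (h.iter_step hx n).trans h1

end Basic

/-- Small neighbourhoods intersected with sublevel sets. -/
def Nb (P : Set E) (f ρ : E → ℝ) (δ t : ℝ) : Set E := {x ∈ P | ρ x ≤ δ ∧ f x ≤ t}

/-- Sublevel set `s` together with a neighbourhood at level `t`. -/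
def Yt (P : Set E) (f ρ : E → ℝ) (δ t s : ℝ) : Set E := {x ∈ P | f x ≤ s ∨ (ρ x ≤ δ ∧ f x ≤ t)}

/-- Sublevel set. -/
def Lo (P : Set E) (f : E → ℝ) (s : ℝ) : Set E := {x ∈ P | f x ≤ s}

section Main

variable (h : Push g P f ρ Ψ a r₀)
include h

theorem inv_L (δ δ' t s : ℝ) : Inv g {x ∈ Yt P f ρ δ' t s | ρ x ≤ δ} := by
  intro x
  constructor
  · rintro ⟨⟨h1, h2⟩, h3⟩
    have h1' := (h.inv x).1 h1
    rw [h.fg x h1', h.ρg x h1'] at h2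
    rw [h.ρg x h1'] at h3
    exact ⟨⟨h1', h2⟩, h3⟩
  · rintro ⟨⟨h1, h2⟩, h3⟩
    exact ⟨⟨(h.inv x).2 h1, by rwa [h.fg x h1, h.ρg x h1]⟩, by rwa [h.ρg x h1]⟩

theorem exc {δ δ' : ℝ} (hδ : δ' < δ) (t s : ℝ) : ∃ η > 0, ∀ x ∈ Yt P f ρ δ' t s,
    x ∉ Lo P f s → ∀ y ∈ Yt P f ρ δ' t s, dist x y < η →
    y ∈ {x ∈ Yt P f ρ δ' t s | ρ x ≤ δ} := by
  obtain ⟨η, hη, h1⟩ := h.ρ_uc (δ - δ') (sub_pos.2 hδ)
  refine ⟨η, hη, fun x hx hxs y hy hxy => ⟨hy, ?_⟩⟩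
  have h2 := h1 x hx.1 y hy.1 hxy
  rcases hx.2 with h3 | h3
  · exact absurd ⟨hx.1, h3⟩ hxs
  · have := (abs_lt.1 h2).1
    linarith [h3.1]

/-- **Scale comparison.** -/
theorem scale {R₁ R₂ : ℝ} (hR₂ : 0 < R₂) (hR : R₂ < R₁) (hR₁ : R₁ ≤ r₀) :
    ∃ e₁ > 0, ∀ δ > 0, ∃ δ' > 0, δ' ≤ δ ∧ ∃ e₀ > 0, ∀ s t : ℝ, a - e₀ < s → s < a → a < t →
      t < a + e₀ → ∀ {k : Type} [Field k] (χ : k) (q : ℕ),
      qr (Zs g χ (Nb P f ρ δ t) (Nb P f ρ δ s) q)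
        (Bs g χ (Nb P f ρ δ' t) (Nb P f ρ δ' s) q) ≤
      qr (Zs g χ (Nb P f ρ R₁ (a + e₁)) (Nb P f ρ R₁ (a - e₁ / 2)) q)
        (Bs g χ (Nb P f ρ R₂ (a + e₁ / 2)) (Nb P f ρ R₂ (a - e₁)) q) := by
  obtain ⟨γ₁, hγ₁, hg₁⟩ := h.gap (hR₂.trans hR)
  obtain ⟨γ₃, hγ₃, hg₃⟩ := h.gap (half_pos hR₂)
  set R₃ := R₂ / 2 with hR₃
  have hR₃' : R₃ < R₂ := half_lt_self hR₂
  have hR₃0 : 0 < R₃ := half_pos hR₂
  refine ⟨min γ₁ γ₃ / 4, by positivity, fun δ hδ => ?_⟩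
  set e₁ := min γ₁ γ₃ / 4 with he₁
  have he₁0 : 0 < e₁ := by positivity
  have hγ₁e : 4 * e₁ ≤ γ₁ := by rw [he₁]; linarith [min_le_left γ₁ γ₃]
  have hγ₃e : 4 * e₁ ≤ γ₃ := by rw [he₁]; linarith [min_le_right γ₁ γ₃]
  -- the intermediate radius
  set δ₂ := min (δ / 2) R₃ with hδ₂
  have hδ₂0 : 0 < δ₂ := lt_min (half_pos hδ) hR₃0
  have hδ₂δ : δ₂ < δ := (min_le_left _ _).trans_lt (half_lt_self hδ)
  obtain ⟨δ', hδ'0, hδ'δ₂, hnear⟩ := h.near hδ₂0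
  have hδ'R₃ : δ' ≤ R₃ := hδ'δ₂.trans (min_le_right _ _)
  have hδ'r₀ : δ' ≤ r₀ := hδ'R₃.trans (hR₃'.le.trans (hR.le.trans hR₁))
  obtain ⟨γ₂, hγ₂, hg₂⟩ := h.gap hδ'0
  refine ⟨δ', hδ'0, hδ'δ₂.trans hδ₂δ.le, min (γ₂ / 2) (e₁ / 2), by positivity,
    fun s t hs hsa hat ht k _ χ q => ?_⟩
  have ht1 : t < a + γ₂ / 2 := ht.trans_le (by linarith [min_le_left (γ₂ / 2) (e₁ / 2)])
  have ht2 : t < a + e₁ / 2 := ht.trans_le (by linarith [min_le_right (γ₂ / 2) (e₁ / 2)])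
  have hs1 : a - γ₂ / 2 < s := lt_of_le_of_lt (by linarith [min_le_left (γ₂ / 2) (e₁ / 2)]) hs
  have hs2 : a - e₁ / 2 < s := lt_of_le_of_lt (by linarith [min_le_right (γ₂ / 2) (e₁ / 2)]) hs
  have hst : s ≤ t := (hsa.trans hat).le
  -- the number of steps of `α`
  obtain ⟨η, hη, hdrop⟩ := h.drop_above (sub_pos.2 hat)
  obtain ⟨n₁, hn₁⟩ := exists_nat_gt (e₁ / η)
  rw [div_lt_iff₀ hη] at hn₁
  obtain ⟨η', hη', hdrop'⟩ := h.drop_below (sub_pos.2 hsa)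
  obtain ⟨n₂, hn₂⟩ := exists_nat_gt (e₁ / η')
  rw [div_lt_iff₀ hη'] at hn₂
  -- `α` on `K₁`
  have hα : ∀ x ∈ P, ρ x ≤ R₁ → f x ≤ a + e₁ → (Ψ 1)^[n₁ + 1] x ∈ Yt P f ρ δ₂ t s := by
    intro x hx hρ hf
    have htr := h.trap hR₁ hg₁ hx hρ
    have hlev : ∀ n : ℕ, f ((Ψ 1)^[n] x) ≤ max t (a + e₁ - n * η) := by
      intro n
      induction n with
      | zero => simpa using Or.inr hf
      | succ n ih =>
        by_cases h1 : f ((Ψ 1)^[n] x) ≤ t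
        · exact ((h.iter_step hx n).trans h1).trans (le_max_left _ _)
        · have h2 : f ((Ψ 1)^[n] x) ≤ a + e₁ - n * η := by
            rcases le_max_iff.1 ih with h3 | h3
            · exact absurd h3 h1
            · exact h3
          refine le_trans ?_ (le_max_right _ _)
          rcases htr n with h3 | h3
          · have h4 := hdrop _ (h.iter_mem hx n) (h3.trans hR₁) (by
              rw [add_sub_cancel]; exact (not_le.1 h1).le)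
            rw [Function.iterate_succ_apply']
            push_cast
            linarith
          · exfalso
            apply h1
            linarith
    have h1 : f ((Ψ 1)^[n₁] x) ≤ t := by
      refine (hlev n₁).trans (max_le le_rfl ?_)
      linarith
    refine ⟨h.iter_mem hx _, ?_⟩
    by_cases h2 : ρ ((Ψ 1)^[n₁ + 1] x) ≤ δ₂
    · exact Or.inr ⟨h2, (h.iter_step hx n₁).trans h1⟩
    · left
      rcases htr n₁ with h3 | h3
      · rw [Function.iterate_succ_apply'] at h2 ⊢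
        have h4 := hg₂ _ (h.iter_mem hx n₁) (h3.trans hR₁) (hδ'δ₂.trans (not_le.1 h2).le)
        linarith
      · refine (h.iter_step hx n₁).trans ?_
        linarith
  -- `β` on the small neighbourhood
  have hβ1 : ∀ x ∈ P, ρ x ≤ δ' → f x ≤ t →
      (Ψ 1)^[n₂] x ∈ Yt P f ρ R₃ (a + e₁ / 2) (a - e₁) := by
    intro x hx hρ hf
    refine ⟨h.iter_mem hx _, ?_⟩
    rcases h.trap (hR₃'.le.trans (hR.le.trans hR₁)) hg₃ hx (hρ.trans hδ'R₃) n₂ with h1 | h1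
    · exact Or.inr ⟨h1, (h.iter_le hx _).trans (hf.trans ht2.le)⟩
    · left
      linarith
  have hβ2 : ∀ x ∈ P, ρ x ≤ δ' → f x ≤ s → f ((Ψ 1)^[n₂] x) ≤ a - e₁ := by
    intro x hx hρ hf
    have htr := h.trap (hR₃'.le.trans (hR.le.trans hR₁)) hg₃ hx (hρ.trans hδ'R₃)
    have hlev : ∀ n : ℕ, f ((Ψ 1)^[n] x) ≤ max (a - e₁) (s - n * η') := by
      intro n
      induction n with
      | zero => simpa using Or.inr hf
      | succ n ih =>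
        by_cases h1 : f ((Ψ 1)^[n] x) ≤ a - e₁
        · exact ((h.iter_step hx n).trans h1).trans (le_max_left _ _)
        · have h2 : f ((Ψ 1)^[n] x) ≤ s - n * η' := by
            rcases le_max_iff.1 ih with h3 | h3
            · exact absurd h3 h1
            · exact h3
          refine le_trans ?_ (le_max_right _ _)
          rcases htr n with h3 | h3
          · have h4 := hdrop' _ (h.iter_mem hx n)
              (h3.trans (hR₃'.le.trans (hR.le.trans hR₁)))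
              (by
                rw [sub_sub_cancel]
                exact (h.iter_le hx n).trans hf)
            rw [Function.iterate_succ_apply']
            push_cast
            linarith
          · exfalso
            apply h1
            linarith
    refine (hlev n₂).trans (max_le le_rfl ?_)
    linarith
  -- the homotopy
  have hH1 : ∀ n : ℕ, ∀ u ∈ Icc (0 : ℝ) 1, ∀ x ∈ Nb P f ρ δ' t,
      Ψ u ((Ψ 1)^[n] x) ∈ Yt P f ρ δ₂ t s := by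
    intro n u hu x hx
    have hm := h.iter_mem hx.1 n
    refine ⟨h.maps u hu _ hm, ?_⟩
    rcases h.trap hδ'r₀ hg₂ hx.1 hx.2.1 n with h1 | h1
    · exact Or.inr ⟨hnear _ hm h1 u hu,
        (h.le u hu _ hm).trans ((h.iter_le hx.1 n).trans hx.2.2)⟩
    · left
      have := h.le u hu _ hm
      linarith [hx.2.2]
  have hH2 : ∀ n : ℕ, ∀ u ∈ Icc (0 : ℝ) 1, ∀ x ∈ Nb P f ρ δ' s,
      Ψ u ((Ψ 1)^[n] x) ∈ Lo P f s := by
    intro n u hu x hx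
    have hm := h.iter_mem hx.1 n
    exact ⟨h.maps u hu _ hm, (h.le u hu _ hm).trans ((h.iter_le hx.1 n).trans hx.2.2)⟩
  -- the algebra
  obtain ⟨η₁, hη₁, hexc₁⟩ := h.exc hδ₂δ t s
  obtain ⟨η₂, hη₂, hexc₂⟩ := h.exc hR₃' (a + e₁ / 2) (a - e₁)
  set L₁ : Set E := {x ∈ Yt P f ρ δ₂ t s | ρ x ≤ δ} with hL₁
  have hA₁ : Nb P f ρ δ' s ⊆ Nb P f ρ δ' t := fun x hx => ⟨hx.1, hx.2.1, hx.2.2.trans hst⟩
  -- extension by zero
  have hext : ∀ c ∈ Zs g χ (Nb P f ρ δ t) (Nb P f ρ δ s) q,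
      rs k L₁ (q + 1) c ∈ Zs g χ (Yt P f ρ δ₂ t s) (Lo P f s) q := by
    intro c hc
    refine rs_mem_Zs (h.inv_L δ δ₂ t s) hη₁ hexc₁ (Zs_restrict ?_ ?_ hc)
    · rintro x ⟨⟨h1, h2⟩, h3⟩
      exact ⟨h1, h3, h2.elim (fun h4 => h4.trans hst) fun h4 => h4.2⟩
    · rintro x ⟨⟨-, h3⟩, h4⟩
      exact ⟨h4.1, h3, h4.2⟩
  have hαm : IsMapP g g (Nb P f ρ R₁ (a + e₁)) (Nb P f ρ R₁ (a - e₁ / 2))
      (Yt P f ρ δ₂ t s) (Lo P f s) ((Ψ 1)^[n₁ + 1]) := by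
    refine ⟨fun x hx => hα x hx.1 hx.2.1 hx.2.2, fun x hx => ⟨h.iter_mem hx.1 _,
      (h.iter_le hx.1 _).trans (hx.2.2.trans hs2.le)⟩, fun x hx => h.iter_eqv hx.1 _,
      fun ε hε => ?_⟩
    obtain ⟨δ₀, hδ₀, h1⟩ := h.iter_uc (n₁ + 1) ε hε
    exact ⟨δ₀, hδ₀, fun x hx y hy => h1 x hx.1 y hy.1⟩
  have hαm2 : IsMapP g g (Yt P f ρ R₃ (a + e₁ / 2) (a - e₁)) (Lo P f (a - e₁))
      (Yt P f ρ δ₂ t s) (Lo P f s) ((Ψ 1)^[n₁ + 1]) := by
    refine ⟨fun x hx => ?_, fun x hx => ⟨h.iter_mem hx.1 _,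
      (h.iter_le hx.1 _).trans (hx.2.trans (by linarith))⟩, fun x hx => h.iter_eqv hx.1 _,
      fun ε hε => ?_⟩
    · rcases hx.2 with h1 | h1
      · exact ⟨h.iter_mem hx.1 _, Or.inl ((h.iter_le hx.1 _).trans (h1.trans (by linarith)))⟩
      · exact hα x hx.1 (h1.1.trans (hR₃'.le.trans hR.le)) (h1.2.trans (by linarith))
    · obtain ⟨δ₀, hδ₀, h1⟩ := h.iter_uc (n₁ + 1) ε hε
      exact ⟨δ₀, hδ₀, fun x hx y hy => h1 x hx.1 y hy.1⟩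
  have hβm : IsMapP g g (Nb P f ρ δ' t) (Nb P f ρ δ' s)
      (Yt P f ρ R₃ (a + e₁ / 2) (a - e₁)) (Lo P f (a - e₁)) ((Ψ 1)^[n₂]) := by
    refine ⟨fun x hx => hβ1 x hx.1 hx.2.1 hx.2.2, fun x hx => ⟨h.iter_mem hx.1 _,
      hβ2 x hx.1 hx.2.1 hx.2.2⟩, fun x hx => h.iter_eqv hx.1 _, fun ε hε => ?_⟩
    obtain ⟨δ₀, hδ₀, h1⟩ := h.iter_uc n₂ ε hε
    exact ⟨δ₀, hδ₀, fun x hx y hy => h1 x hx.1 y hy.1⟩
  have hchain : ∀ c ∈ Zs g χ (Yt P f ρ δ₂ t s) (Lo P f s) q, ∀ n : ℕ,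
      pb ((Ψ 1)^[n]) c - c ∈ Bs g χ (Nb P f ρ δ' t) (Nb P f ρ δ' s) q := by
    intro c hc n
    induction n with
    | zero =>
      have : pb ((Ψ 1)^[0]) c - c = 0 := by
        funext x
        simp
      rw [this]
      exact Submodule.zero_mem _
    | succ n ih =>
      have hH : IsHtpy g g (Nb P f ρ δ' t) (Nb P f ρ δ' s) (Yt P f ρ δ₂ t s) (Lo P f s)
          (fun u x => Ψ u ((Ψ 1)^[n] x)) := by
        refine ⟨hH1 n, hH2 n, fun u hu x hx => ?_, fun ε hε => ?_⟩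
        · rw [h.iter_eqv hx.1, h.eqv u hu _ (h.iter_mem hx.1 n)]
        · obtain ⟨δ₀, hδ₀, h1⟩ := h.htpy_uc n ε hε
          exact ⟨δ₀, hδ₀, fun u hu v hv x hx y hy => h1 u hu v hv x hx.1 y hy.1⟩
      have h1 := homotopy hH hA₁ hc
      have h2 := Submodule.add_mem _ h1 ih
      refine Bs_congr h2 one_pos fun x hx => ?_
      have a1 : (fun y => Ψ 1 ((Ψ 1)^[n] y)) ∘ x = (Ψ 1)^[n + 1] ∘ x := by
        rw [Function.iterate_succ']; rfl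
      have a0 : (fun y => Ψ 0 ((Ψ 1)^[n] y)) ∘ x = (Ψ 1)^[n] ∘ x :=
        funext fun i => h.zero _ (h.iter_mem (hx.1 i).1 n)
      simp only [Pi.sub_apply, Pi.add_apply, pb_apply, a1, a0]
      ring
  refine qr_le_of_inj (pb ((Ψ 1)^[n₁ + 1]) ∘ₗ rs k L₁ (q + 1)) (fun c hc => ?_)
    fun c hc hcB => ?_
  · exact pb_mem_Zs hαm (fun x hx => ⟨hx.1, hx.2.1, hx.2.2.trans (by linarith)⟩) (hext c hc)
  · have hc' := hext c hc
    set c' := rs k L₁ (q + 1) c with hc'def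
    change pb ((Ψ 1)^[n₁ + 1]) c' ∈ _ at hcB
    -- `α^* c'` is a coboundary on the large pair
    have h1 : pb ((Ψ 1)^[n₁ + 1]) c' ∈
        Zs g χ (Yt P f ρ R₃ (a + e₁ / 2) (a - e₁)) (Lo P f (a - e₁)) q :=
      pb_mem_Zs hαm2 (fun x hx => ⟨hx.1, Or.inl hx.2⟩) hc'
    have h2 : pb ((Ψ 1)^[n₁ + 1]) c' ∈
        Bs g χ (Yt P f ρ R₃ (a + e₁ / 2) (a - e₁)) (Lo P f (a - e₁)) q := by
      refine mem_Bs_of_excision (h.inv_L R₂ R₃ (a + e₁ / 2) (a - e₁)) hη₂ hexc₂ h1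
        (Bs_restrict ?_ ?_ hcB)
      · rintro x ⟨⟨h1, h2⟩, h3⟩
        exact ⟨h1, h3, h2.elim (fun h4 => h4.trans (by linarith)) fun h4 => h4.2⟩
      · rintro x ⟨⟨-, h3⟩, h4⟩
        exact ⟨h4.1, h3, h4.2⟩
    have h3 := pb_mem_Bs hβm hA₁ h2
    have h4 := hchain c' hc' (n₁ + 1 + n₂)
    have h5 := Submodule.sub_mem _ h3 h4
    refine Bs_congr h5 one_pos fun x hx => ?_
    have a1 : (Ψ 1)^[n₁ + 1 + n₂] ∘ x = (Ψ 1)^[n₁ + 1] ∘ (Ψ 1)^[n₂] ∘ x := by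
      rw [Function.iterate_add]; rfl
    have a2 : c' x = c x := rs_of_mem fun i =>
      ⟨⟨(hx.1 i).1, Or.inr ⟨(hx.1 i).2.1.trans hδ'δ₂, (hx.1 i).2.2⟩⟩,
        (hx.1 i).2.1.trans (hδ'δ₂.trans hδ₂δ.le)⟩
    simp only [Pi.sub_apply, pb_apply, a1]
    rw [a2]
    ring

end Main

end Push

end Vale.Agent.P216.H319
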